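import Mathlib

open MeasureTheory
open scoped InnerProductSpace ComplexConjugate

namespace Vale.Agent.P123

variable {H : Type*} [NormedAddCommGroup H] [InnerProductSpace ℂ H]

lemma seq_bound (κ c M : ℝ) (hκ : 1 < κ) (m : ℕ → ℝ) (hM : ∀ n, |m n| ≤ M)
    (h : ∀ n, -c ≤ κ * m n - m (n + 1)) (k : ℕ) : -c / (κ - 1) ≤ m k := by
  by_contra hlt
  push Not at hlt
  have hk1 : 0 < κ - 1 := by linarith
  set e := -c / (κ - 1) with he
  have hce : -c = e * (κ - 1) := by rw [he]; field_simp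
  have key : ∀ n, m (k + n) - e ≤ κ ^ n * (m k - e) := by
    intro n
    induction n with
    | zero => simp
    | succ n ih =>
      have h1 := h (k + n)
      have h2 : m (k + (n + 1)) - e ≤ κ * (m (k + n) - e) := by
        rw [← add_assoc]; nlinarith
      calc m (k + (n + 1)) - e ≤ κ * (m (k + n) - e) := h2
        _ ≤ κ * (κ ^ n * (m k - e)) := by gcongr
        _ = κ ^ (n + 1) * (m k - e) := by ring
  have hpos : 0 < e - m k := by linarith
  obtain ⟨n, hn⟩ := pow_unbounded_of_one_lt ((M + |e|) / (e - m k)) hκ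
  have h3 := key n
  have h4 := (abs_le.1 (hM (k + n))).1
  rw [div_lt_iff₀ hpos] at hn
  have h5 := le_abs_self e
  nlinarith

lemma exists_norming [FiniteDimensional ℂ H] [Nontrivial H] (T : H →L[ℂ] H) :
    ∃ x : H, ‖x‖ = 1 ∧ ‖T x‖ = ‖T‖ := by
  have : ProperSpace H := FiniteDimensional.proper ℂ H
  have hne : (Metric.sphere (0 : H) 1).Nonempty := NormedSpace.sphere_nonempty.2 zero_le_one
  obtain ⟨x, hx, hmax⟩ := (isCompact_sphere (0 : H) 1).exists_isMaxOn hne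
    (f := fun x => ‖T x‖) (by fun_prop)
  have hx1 : ‖x‖ = 1 := by simpa using hx
  refine ⟨x, hx1, le_antisymm (by simpa [hx1] using T.le_opNorm x) ?_⟩
  refine ContinuousLinearMap.opNorm_le_of_unit_norm (norm_nonneg _) ?_
  intro y hy
  exact hmax (by simpa using hy)

/-- if `‖T x‖ = ‖T‖` for a unit vector then `⟪T x, T v⟫ = ‖T‖^2 ⟪x, v⟫` -/
lemma norming_inner [FiniteDimensional ℂ H] (T : H →L[ℂ] H) (x : H) (hx : ‖x‖ = 1)
    (hT : ‖T x‖ = ‖T‖) (v : H) : ⟪T x, T v⟫_ℂ = ((‖T‖ ^ 2 : ℝ) : ℂ) * ⟪x, v⟫_ℂ := by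
  have : CompleteSpace H := FiniteDimensional.complete ℂ H
  set u := ContinuousLinearMap.adjoint T (T x) with hu
  have h1 : ‖u‖ ≤ ‖T‖ ^ 2 := by
    calc ‖u‖ ≤ ‖ContinuousLinearMap.adjoint T‖ * ‖T x‖ := ContinuousLinearMap.le_opNorm _ _
      _ = ‖T‖ ^ 2 := by rw [hT, LinearIsometryEquiv.norm_map]; ring
  have h2 : ⟪u, x⟫_ℂ = ((‖T‖ ^ 2 : ℝ) : ℂ) := by
    rw [hu, ContinuousLinearMap.adjoint_inner_left, inner_self_eq_norm_sq_to_K, hT]; simp
  have h3 : u = ((‖T‖ ^ 2 : ℝ) : ℂ) • x := by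
    have h4 : ‖u - ((‖T‖ ^ 2 : ℝ) : ℂ) • x‖ ^ 2 ≤ 0 := by
      rw [@norm_sub_sq ℂ, inner_smul_right, h2, norm_smul, hx]
      have : ‖u‖ ^ 2 ≤ (‖T‖ ^ 2) ^ 2 := by gcongr
      simp only [← Complex.ofReal_mul, RCLike.re_to_complex, Complex.ofReal_re, Complex.norm_real,
        Real.norm_eq_abs, mul_one, sq_abs]
      nlinarith
    have h5 : ‖u - ((‖T‖ ^ 2 : ℝ) : ℂ) • x‖ = 0 := by
      have := sq_nonneg ‖u - ((‖T‖ ^ 2 : ℝ) : ℂ) • x‖
      exact pow_eq_zero_iff (two_ne_zero) |>.1 (le_antisymm h4 this)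
    exact sub_eq_zero.1 (norm_eq_zero.1 h5)
  rw [← ContinuousLinearMap.adjoint_inner_left, ← hu, h3, inner_smul_left]
  simp

/-- pointwise inequality for a form with nonnegative real part -/
lemma pt_ineq (N : H →L[ℂ] H) (hN : ∀ u, 0 ≤ (⟪u, N u⟫_ℂ).re) (a b : H) (c : ℂ) (hc : ‖c‖ ≤ 1)
    (l : ℝ) :
    0 ≤ l ^ 2 * (⟪a, N a⟫_ℂ).re + (⟪b, N b⟫_ℂ).re
      + l * ((c * ⟪a, N b⟫_ℂ).re + (conj c * ⟪b, N a⟫_ℂ).re) := by
  have h1 := hN ((l : ℂ) • a + c • b)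
  have h2 := hN b
  simp only [map_add, map_smul, inner_add_left, inner_add_right, inner_smul_left,
    inner_smul_right, Complex.conj_ofReal] at h1
  have h3 : c.re ^ 2 + c.im ^ 2 ≤ 1 := by
    have : ‖c‖ ^ 2 ≤ 1 := by nlinarith [norm_nonneg c]
    rw [Complex.sq_norm, Complex.normSq_apply] at this
    nlinarith
  simp only [Complex.add_re, Complex.mul_re, Complex.mul_im, Complex.add_im, Complex.ofReal_re,
    Complex.ofReal_im, Complex.conj_re, Complex.conj_im] at h1 ⊢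
  nlinarith

theorem core [FiniteDimensional ℂ H] [Nontrivial H] {X : Type*} [MeasurableSpace X]
    (μ : Measure X) (ν : X → H →L[ℂ] H) (f : X → ℂ) (T : H →L[ℂ] H)
    (hν : Integrable ν μ) (hf : AEStronglyMeasurable f μ) (hf1 : ∀ᵐ s ∂μ, ‖f s‖ ≤ 1)
    (hcomm : ∀ᵐ s ∂μ, ∀ v, ν s (T v) = T (ν s v))
    (hpos : ∀ᵐ s ∂μ, ∀ u, 0 ≤ (⟪u, ν s u⟫_ℂ).re)
    (hint : ∀ (n : ℕ) (u v : H), ∫ s, f s ^ n * ⟪u, ν s v⟫_ℂ ∂μ = ⟪u, (T ^ n) v⟫_ℂ) :
    ‖T‖ ≤ 2 := by
  by_contra hlt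
  push Not at hlt
  obtain ⟨x, hx, hTx⟩ := exists_norming T
  set κ := ‖T‖ with hκ
  have hκ0 : (κ : ℂ) ≠ 0 := by
    have : κ ≠ 0 := by linarith
    exact_mod_cast this
  set y : H := (κ : ℂ)⁻¹ • T x with hy
  have hTxy : T x = (κ : ℂ) • y := by rw [hy, smul_smul, mul_inv_cancel₀ hκ0, one_smul]
  have hy1 : ‖y‖ = 1 := by
    rw [hy, norm_smul, hTx, norm_inv, Complex.norm_real, Real.norm_eq_abs, abs_of_pos (by linarith)]
    field_simp
  have hyT : ∀ v, ⟪y, T v⟫_ℂ = κ * ⟪x, v⟫_ℂ := by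
    intro v
    rw [hy, inner_smul_left, norming_inner T x hx hTx]
    simp only [map_inv₀, Complex.conj_ofReal]
    push_cast
    field_simp
    rfl
  -- integrability
  have hI0 : ∀ u v : H, Integrable (fun s => ⟪u, ν s v⟫_ℂ) μ := by
    intro u v
    exact ((innerSL ℂ u).comp (ContinuousLinearMap.apply ℂ H v)).integrable_comp hν
  have hI : ∀ (g : X → ℂ), AEStronglyMeasurable g μ → (∀ᵐ s ∂μ, ‖g s‖ ≤ 1) → ∀ u v : H,
      Integrable (fun s => g s * ⟪u, ν s v⟫_ℂ) μ := by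
    intro g hg hg1 u v
    exact (hI0 u v).bdd_mul hg hg1
  have hfn : ∀ n : ℕ, ∀ᵐ s ∂μ, ‖f s ^ n‖ ≤ 1 := by
    intro n
    filter_upwards [hf1] with s hs
    rw [norm_pow]; exact pow_le_one₀ (norm_nonneg _) hs
  have hcfn : ∀ n : ℕ, ∀ᵐ s ∂μ, ‖conj (f s ^ n)‖ ≤ 1 := by
    intro n
    filter_upwards [hfn n] with s hs
    rwa [Complex.norm_conj]
  have hfm : ∀ n : ℕ, AEStronglyMeasurable (fun s => f s ^ n) μ := fun n => hf.pow n
  have hcfm : ∀ n : ℕ, AEStronglyMeasurable (fun s => conj (f s ^ n)) μ := fun n =>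
    Complex.continuous_conj.comp_aestronglyMeasurable (hfm n)
  have hI1 := fun n => hI _ (hfm n) (hfn n)
  have hI2 := fun n => hI _ (hcfm n) (hcfn n)
  set C := ∫ s, ‖ν s‖ ∂μ with hC
  have hbd : ∀ (g : X → ℂ), (∀ᵐ s ∂μ, ‖g s‖ ≤ 1) → ∀ u v : H,
      ‖∫ s, g s * ⟪u, ν s v⟫_ℂ ∂μ‖ ≤ C * ‖u‖ * ‖v‖ := by
    intro g hg1 u v
    rw [hC, ← integral_mul_const, ← integral_mul_const]
    refine norm_integral_le_of_norm_le ((hν.norm.mul_const _).mul_const _) ?_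
    filter_upwards [hg1] with s hs
    rw [norm_mul]
    calc ‖g s‖ * ‖⟪u, ν s v⟫_ℂ‖ ≤ 1 * (‖u‖ * (‖ν s‖ * ‖v‖)) := by
          gcongr
          exact (norm_inner_le_norm _ _).trans (by gcongr; exact (ν s).le_opNorm v)
      _ = _ := by ring
  have hC0 : 0 ≤ C := integral_nonneg fun s => norm_nonneg _
  have hTn : ∀ n : ℕ, ‖(T ^ n) x‖ ≤ C := by
    intro n
    have h1 := hbd _ (hfn n) ((T ^ n) x) x
    rw [hint, inner_self_eq_norm_sq_to_K, hx] at h1
    simp only [norm_pow, Complex.coe_algebraMap, Complex.norm_real, norm_norm] at h1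
    by_cases h0 : ‖(T ^ n) x‖ = 0
    · rw [h0]; exact hC0
    · have : 0 < ‖(T ^ n) x‖ := lt_of_le_of_ne (norm_nonneg _) (Ne.symm h0)
      nlinarith
  set m : ℕ → ℝ := fun n => (∫ s, conj (f s ^ n) * ⟪x, ν s ((T ^ n) x)⟫_ℂ ∂μ).re with hm
  have hmb : ∀ n, |m n| ≤ C * C := by
    intro n
    refine (Complex.abs_re_le_norm _).trans ((hbd _ (hcfn n) _ _).trans ?_)
    rw [hx, mul_one]
    exact mul_le_mul_of_nonneg_left (hTn n) hC0
  -- the quantity d^2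
  set w : X → H := fun s => y - f s • x with hw
  have hwexp : ∀ s, ⟪w s, ν s (w s)⟫_ℂ = ⟪y, ν s y⟫_ℂ - f s ^ 1 * ⟪y, ν s x⟫_ℂ
      - conj (f s ^ 1) * ⟪x, ν s y⟫_ℂ + (conj (f s) * f s) * ⟪x, ν s x⟫_ℂ := by
    intro s
    simp only [hw, map_sub, map_smul, inner_sub_left, inner_sub_right, inner_smul_left,
      inner_smul_right]
    ring
  have hff : ∀ᵐ s ∂μ, ‖conj (f s) * f s‖ ≤ 1 := by
    filter_upwards [hf1] with s hs
    rw [norm_mul, Complex.norm_conj]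
    nlinarith [norm_nonneg (f s)]
  have hffm : AEStronglyMeasurable (fun s => conj (f s) * f s) μ :=
    (Complex.continuous_conj.comp_aestronglyMeasurable hf).mul hf
  have hIw : Integrable (fun s => ⟪w s, ν s (w s)⟫_ℂ) μ := by
    simp_rw [hwexp]
    exact (((hI0 y y).sub (hI1 1 y x)).sub (hI2 1 x y)).add (hI _ hffm hff x x)
  set d : ℝ := (∫ s, ⟪w s, ν s (w s)⟫_ℂ ∂μ).re with hd
  have hre : ∀ (g : X → ℂ), Integrable g μ → (∀ᵐ s ∂μ, 0 ≤ (g s).re) → 0 ≤ (∫ s, g s ∂μ).re := by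
    intro g hg h0
    have := integral_re (𝕜 := ℂ) hg
    simp only [RCLike.re_to_complex] at this
    rw [← this]
    exact integral_nonneg_of_ae h0
  have hd0 : 0 ≤ d := by
    refine hre _ hIw ?_
    filter_upwards [hpos] with s hs using hs _
  have hint0 : ∀ u v : H, ∫ s, ⟪u, ν s v⟫_ℂ ∂μ = ⟪u, v⟫_ℂ := by
    intro u v
    simpa using hint 0 u v
  -- commuting identity
  have hcy : ∀ (n : ℕ), ∀ᵐ s ∂μ, ⟪y, ν s ((T ^ (n + 1)) x)⟫_ℂ = κ * ⟪x, ν s ((T ^ n) x)⟫_ℂ := by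
    intro n
    filter_upwards [hcomm] with s hs
    rw [pow_succ', mul_apply_eq_comp, hs, hyT]
  set l : ℝ := 1 - κ⁻¹ with hl
  have hκpos : 0 < κ := by linarith
  have hl0 : 0 < l := by
    rw [hl, sub_pos]; exact inv_lt_one_of_one_lt₀ (by linarith)
  have hrec : ∀ n : ℕ, -(d / l) ≤ κ * m n - m (n + 1) := by
    intro n
    set z := (T ^ (n + 1)) x with hz
    have hzy : (T ^ n) y = (κ : ℂ)⁻¹ • z := by
      rw [hy, map_smul, hz, pow_succ, mul_apply_eq_comp]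
    have h1 : 0 ≤ (∫ s, (((l ^ 2 : ℝ) : ℂ) * ⟪z, ν s z⟫_ℂ + ⟪w s, ν s (w s)⟫_ℂ
        + (l : ℂ) * (f s ^ n * ⟪z, ν s y⟫_ℂ - f s ^ (n + 1) * ⟪z, ν s x⟫_ℂ
          + (κ * (conj (f s ^ n) * ⟪x, ν s ((T ^ n) x)⟫_ℂ)
            - conj (f s ^ (n + 1)) * ⟪x, ν s z⟫_ℂ))) ∂μ).re := by
      refine hre _ ((((hI0 z z).const_mul _).add hIw).add ((((hI1 n z y).sub
        (hI1 (n + 1) z x)).add (((hI2 n x _).const_mul _).sub (hI2 (n + 1) x z))).const_mul _)) ?_
      filter_upwards [hpos, hfn n, hcy n] with s hs1 hs2 hs3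
      have h2 := pt_ineq (ν s) hs1 z (w s) (f s ^ n) hs2 l
      have h3 : f s ^ n * ⟪z, ν s (w s)⟫_ℂ
          = f s ^ n * ⟪z, ν s y⟫_ℂ - f s ^ (n + 1) * ⟪z, ν s x⟫_ℂ := by
        simp only [hw, map_sub, map_smul, inner_sub_right, inner_smul_right]; ring
      have h4 : conj (f s ^ n) * ⟪w s, ν s z⟫_ℂ
          = κ * (conj (f s ^ n) * ⟪x, ν s ((T ^ n) x)⟫_ℂ)
            - conj (f s ^ (n + 1)) * ⟪x, ν s z⟫_ℂ := by
        rw [← hz] at hs3
        simp only [hw, inner_sub_left, inner_smul_left, hs3, map_pow]; ring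
      rw [h3, h4] at h2
      simpa only [Complex.add_re, Complex.re_ofReal_mul] using h2
    rw [integral_add, integral_add, integral_const_mul, integral_const_mul,
      integral_add, integral_sub, integral_sub, integral_const_mul,
      hint, hint, hint0, hzy, ← hz, inner_smul_right, inner_self_eq_norm_sq_to_K] at h1
    rotate_left
    · exact (hI2 n x _).const_mul _
    · exact hI2 (n + 1) x z
    · exact hI1 n z y
    · exact hI1 (n + 1) z x
    · exact (hI1 n z y).sub (hI1 (n + 1) z x)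
    · exact ((hI2 n x _).const_mul _).sub (hI2 (n + 1) x z)
    · exact (hI0 z z).const_mul _
    · exact hIw
    · exact ((hI0 z z).const_mul _).add hIw
    · exact (((hI1 n z y).sub
        (hI1 (n + 1) z x)).add (((hI2 n x _).const_mul _).sub (hI2 (n + 1) x z))).const_mul _
    simp only [Complex.add_re, Complex.re_ofReal_mul, Complex.sub_re, ← hd,
      Complex.coe_algebraMap, ← Complex.ofReal_pow, ← Complex.ofReal_inv, ← Complex.ofReal_mul,
      Complex.ofReal_re] at h1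
    have h5 : 0 ≤ d + l * (κ * m n - m (n + 1)) := by
      have : κ⁻¹ * ‖z‖ ^ 2 - ‖z‖ ^ 2 = -l * ‖z‖ ^ 2 := by rw [hl]; ring
      rw [this] at h1
      simp only [hm]
      rw [← hz]
      nlinarith
    rw [neg_le, le_div_iff₀ hl0]
    linarith
  have hlow := seq_bound κ (d / l) (C * C) (by linarith) m hmb hrec 1
  -- upper bound on m 1
  have hup : κ * d ≤ 2 * κ - κ ^ 2 - m 1 := by
    have h1 : d = (⟪y, y⟫_ℂ - ⟪y, (T ^ 1) x⟫_ℂ - ∫ s, conj (f s ^ 1) * ⟪x, ν s y⟫_ℂ ∂μ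
        + ∫ s, (conj (f s) * f s) * ⟪x, ν s x⟫_ℂ ∂μ).re := by
      rw [hd]
      simp_rw [hwexp]
      rw [integral_add, integral_sub, integral_sub (hI0 y y) (hI1 1 y x), hint, hint0]
      · exact (hI0 y y).sub (hI1 1 y x)
      · exact hI2 1 x y
      · exact ((hI0 y y).sub (hI1 1 y x)).sub (hI2 1 x y)
      · exact hI _ hffm hff x x
    have h2 : m 1 = κ * (∫ s, conj (f s ^ 1) * ⟪x, ν s y⟫_ℂ ∂μ).re := by
      simp only [hm]
      rw [← Complex.re_ofReal_mul, ← integral_const_mul]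
      congr 2
      ext s
      rw [pow_one T, hTxy, map_smul, inner_smul_right]; ring
    have h3 : (∫ s, (conj (f s) * f s) * ⟪x, ν s x⟫_ℂ ∂μ).re ≤ 1 := by
      have h4 := hre _ ((hI0 x x).sub (hI _ hffm hff x x)) (by
        filter_upwards [hpos, hf1] with s hs1 hs2
        have := hs1 x
        rw [Pi.sub_apply, Complex.conj_mul', ← Complex.ofReal_pow, Complex.sub_re,
          Complex.re_ofReal_mul]
        have : ‖f s‖ ^ 2 ≤ 1 := by nlinarith [norm_nonneg (f s)]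
        nlinarith)
      simp only [Pi.sub_apply] at h4
      rw [integral_sub (hI0 x x) (hI _ hffm hff x x), hint0, inner_self_eq_norm_sq_to_K, hx] at h4
      simp only [Complex.sub_re] at h4
      simpa using h4
    rw [pow_one T, hyT, inner_self_eq_norm_sq_to_K, inner_self_eq_norm_sq_to_K, hx, hy1] at h1
    simp only [Complex.add_re, Complex.sub_re] at h1
    simp at h1
    rw [h2]
    simp only [pow_one]
    nlinarith
  have hk1 : 0 < κ - 1 := by linarith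
  have h6 : -(d / l) / (κ - 1) = -(κ * d) / (κ - 1) ^ 2 := by
    rw [hl]; field_simp
  rw [h6, div_le_iff₀ (by positivity)] at hlow
  have h7 : m 1 < 0 := by nlinarith
  have h8 : 1 < (κ - 1) ^ 2 := by nlinarith
  nlinarith

end Vale.Agent.P123
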