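import Vale.Agent.P123.Contour
import Vale.Agent.P123.Core

open MeasureTheory Set Polynomial
open scoped InnerProductSpace ComplexConjugate

namespace Vale.Agent.P123

variable {H : Type*} [NormedAddCommGroup H] [InnerProductSpace ℂ H]

lemma res_left {A : H →L[ℂ] H} {z : ℂ} (hz : z ∈ resolventSet ℂ A) (v : H) :
    resolvent A z (z • v - A v) = v := by
  have h := Ring.inverse_mul_cancel _ (spectrum.mem_resolventSet_iff.1 hz)
  have := congrArg (fun B : H →L[ℂ] H => B v) h
  simpa [resolvent, Algebra.algebraMap_eq_smul_one] using this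

lemma res_right {A : H →L[ℂ] H} {z : ℂ} (hz : z ∈ resolventSet ℂ A) (v : H) :
    z • resolvent A z v - A (resolvent A z v) = v := by
  have h := Ring.mul_inverse_cancel _ (spectrum.mem_resolventSet_iff.1 hz)
  have := congrArg (fun B : H →L[ℂ] H => B v) h
  simpa [resolvent, Algebra.algebraMap_eq_smul_one] using this

lemma res_comm {A : H →L[ℂ] H} {z : ℂ} (hz : z ∈ resolventSet ℂ A) (v : H) :
    resolvent A z (A v) = A (resolvent A z v) := by
  have h1 := res_left hz v
  have h2 := res_right hz v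
  rw [map_sub, map_smul] at h1
  have := h1.trans h2.symm
  exact sub_right_injective this

lemma res_comm_poly {A : H →L[ℂ] H} {z : ℂ} (hz : z ∈ resolventSet ℂ A) (P : ℂ[X]) (v : H) :
    resolvent A z (aeval A P v) = aeval A P (resolvent A z v) := by
  have h : Commute (resolvent A z) A := by
    ext v; exact res_comm hz v
  have h2 : Commute (resolvent A z) (aeval A P) := by
    induction P using Polynomial.induction_on with
    | C a => rw [aeval_C]; exact (Algebra.commute_algebraMap_right _ _)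
    | add p q hp hq => rw [map_add]; exact hp.add_right hq
    | monomial n a h3 =>
      rw [pow_succ, ← mul_assoc, map_mul, aeval_X]; exact h3.mul_right h
  exact congrArg (fun B : H →L[ℂ] H => B v) h2.eq

lemma res_cont [CompleteSpace H] (A : H →L[ℂ] H) :
    ContinuousOn (resolvent A : ℂ → H →L[ℂ] H) (resolventSet ℂ A) :=
  fun _ hz => (spectrum.hasDerivAt_resolvent_const_left hz).continuousAt.continuousWithinAt

lemma res_cont' [CompleteSpace H] (A : H →L[ℂ] H) (u v : H) :
    ContinuousOn (fun z : ℂ => ⟪u, resolvent A z v⟫_ℂ) (resolventSet ℂ A) :=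
  ((innerSL ℂ u).comp (ContinuousLinearMap.apply ℂ H v)).continuous.comp_continuousOn (res_cont A)

section
variable [FiniteDimensional ℂ H] {A : H →L[ℂ] H} {N : ℕ} {p : ℕ → ℂ}

lemma cauchy_gen (hp : p N = p 0)
    (hS : ∀ j < N, ∀ s ∈ Icc (0 : ℝ) 1, pt p (j, s) ∈ resolventSet ℂ A)
    (c : ℂ) (hc : c ∉ resolventSet ℂ A)
    (hw : ∫ q, ed p q • (pt p q - c)⁻¹ ∂(pm N) = 2 * Real.pi * Complex.I) (u : H) (k : ℕ) :
    ∀ (v : H), (((A : Module.End ℂ H) - c • (1 : Module.End ℂ H)) ^ k) v = 0 → ∀ m : ℕ,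
      ∫ q, ed p q • (((pt p q - c)⁻¹) ^ m * ⟪u, resolvent A (pt p q) v⟫_ℂ) ∂(pm N)
        = if m = 0 then 2 * Real.pi * Complex.I * ⟪u, v⟫_ℂ else 0 := by
  have : CompleteSpace H := FiniteDimensional.complete ℂ H
  have hne : ∀ z ∈ resolventSet ℂ A, z - c ≠ 0 := by
    intro z hz h0
    rw [sub_eq_zero] at h0
    exact hc (h0 ▸ hz)
  have hinv : ContinuousOn (fun z : ℂ => (z - c)⁻¹) (resolventSet ℂ A) :=
    ContinuousOn.inv₀ (by fun_prop) hne
  induction k with
  | zero =>
    intro v hv m
    have : v = 0 := by simpa using hv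
    subst this
    simp
  | succ k ih =>
    intro v hv m
    rw [pow_succ, Module.End.mul_apply] at hv
    have h1 := ih _ hv (m + 1)
    set v' := ((A : Module.End ℂ H) - c • (1 : Module.End ℂ H)) v with hv'
    have hv'' : v' = A v - c • v := by simp [hv']
    have h2 : ∀ z ∈ resolventSet ℂ A, ((z - c)⁻¹) ^ m * ⟪u, resolvent A z v⟫_ℂ
        = ((z - c)⁻¹) ^ (m + 1) * ⟪u, v⟫_ℂ + ((z - c)⁻¹) ^ (m + 1) * ⟪u, resolvent A z v'⟫_ℂ := by
      intro z hz
      have h3 := res_left hz v
      have h4 : resolvent A z v' = (z - c) • resolvent A z v - v := by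
        nth_rewrite 2 [← h3]
        rw [hv'', ← map_smul, ← map_sub]
        congr 1
        module
      rw [h4, inner_sub_right, inner_smul_right]
      have h8 := inv_mul_cancel₀ (hne z hz)
      rw [pow_succ]
      linear_combination (-((z - c)⁻¹) ^ m * ⟪u, resolvent A z v⟫_ℂ) * h8
    have h5 : ∫ q, ed p q • (((pt p q - c)⁻¹) ^ m * ⟪u, resolvent A (pt p q) v⟫_ℂ) ∂(pm N)
        = ∫ q, (ed p q • (((pt p q - c)⁻¹) ^ (m + 1)) * ⟪u, v⟫_ℂ
          + ed p q • (((pt p q - c)⁻¹) ^ (m + 1) * ⟪u, resolvent A (pt p q) v'⟫_ℂ)) ∂(pm N) := by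
      refine integral_congr_ae (pm_ae fun j hj s hs => ?_)
      simp only [h2 _ (hS j hj s hs), smul_eq_mul]
      ring
    rw [h5, integral_add, h1, integral_mul_const]
    rotate_left
    · exact (pm_integrable hS (hinv.pow (m + 1))).mul_const _
    · exact pm_integrable hS ((hinv.pow (m + 1)).mul (res_cont' A u v'))
    rcases Nat.eq_zero_or_pos m with rfl | hm
    · simp only [zero_add, pow_one, hw]; simp
    · have h6 := pm_exact (F := fun z => ((z - c)⁻¹) ^ (m + 1))
        (G := fun z => -(m : ℂ)⁻¹ * ((z - c)⁻¹) ^ m) hp hS (hinv.pow (m + 1)) (by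
          intro z hz
          have h7 := ((((hasDerivAt_id z).sub_const c).inv (hne z hz)).pow m).const_mul (-(m : ℂ)⁻¹)
          refine h7.congr_deriv ?_
          have := hne z hz
          have hm0 : (m : ℂ) ≠ 0 := by exact_mod_cast hm.ne'
          obtain ⟨m', rfl⟩ : ∃ m', m = m' + 1 := ⟨m - 1, by omega⟩
          simp only [id, Pi.inv_apply, Nat.add_sub_cancel]
          rw [pow_succ (z - c)⁻¹, pow_succ (z - c)⁻¹]
          generalize (z - c)⁻¹ ^ m' = t
          field_simp)
      rw [h6]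
      simp [hm.ne']

lemma cauchy_zero (hp : p N = p 0)
    (hS : ∀ j < N, ∀ s ∈ Icc (0 : ℝ) 1, pt p (j, s) ∈ resolventSet ℂ A)
    (hw : ∀ (c : ℂ) (x : H), x ≠ 0 → A x = c • x →
      ∫ q, ed p q • (pt p q - c)⁻¹ ∂(pm N) = 2 * Real.pi * Complex.I) (u v : H) :
    ∫ q, ed p q • ⟪u, resolvent A (pt p q) v⟫_ℂ ∂(pm N) = 2 * Real.pi * Complex.I * ⟪u, v⟫_ℂ := by
  have : CompleteSpace H := FiniteDimensional.complete ℂ H
  have htop := Module.End.iSup_maxGenEigenspace_eq_top (A : Module.End ℂ H)
  have hv : v ∈ ⨆ c, Module.End.maxGenEigenspace (A : Module.End ℂ H) c := by rw [htop]; trivial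
  induction hv using Submodule.iSup_induction' with
  | mem c v hv =>
    by_cases hv0 : v = 0
    · subst hv0; simp
    · obtain ⟨k, hk⟩ := (Module.End.mem_maxGenEigenspace _ _ _).1 hv
      have hex : ∃ x : H, x ≠ 0 ∧ A x = c • x := by
        clear hv
        induction k generalizing v with
        | zero => exact absurd (by simpa using hk) hv0
        | succ k ih =>
          rw [pow_succ, Module.End.mul_apply] at hk
          by_cases h0 : ((A : Module.End ℂ H) - c • (1 : Module.End ℂ H)) v = 0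
          · exact ⟨v, hv0, by simpa [sub_eq_zero] using h0⟩
          · exact ih _ h0 hk
      obtain ⟨x, hx0, hx⟩ := hex
      have hc : c ∉ resolventSet ℂ A := by
        intro hc
        have := res_left hc x
        rw [hx, sub_self, map_zero] at this
        exact hx0 this.symm
      simpa using cauchy_gen hp hS c hc (hw c x hx0 hx) u k v hk 0
  | zero => simp
  | add x y _ _ hx hy =>
    simp only [map_add, inner_add_right, smul_add]
    rw [integral_add (pm_integrable hS (res_cont' A u x)) (pm_integrable hS (res_cont' A u y)),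
      hx, hy]
    ring

lemma cauchy_poly (hp : p N = p 0)
    (hS : ∀ j < N, ∀ s ∈ Icc (0 : ℝ) 1, pt p (j, s) ∈ resolventSet ℂ A)
    (hw : ∀ (c : ℂ) (x : H), x ≠ 0 → A x = c • x →
      ∫ q, ed p q • (pt p q - c)⁻¹ ∂(pm N) = 2 * Real.pi * Complex.I) (P : ℂ[X]) (u : H) :
    ∀ v : H, ∫ q, ed p q • (P.eval (pt p q) * ⟪u, resolvent A (pt p q) v⟫_ℂ) ∂(pm N)
      = 2 * Real.pi * Complex.I * ⟪u, aeval A P v⟫_ℂ := by
  have : CompleteSpace H := FiniteDimensional.complete ℂ H
  have hc : ∀ (P : ℂ[X]) (v : H), ContinuousOn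
      (fun z : ℂ => P.eval z * ⟪u, resolvent A z v⟫_ℂ) (resolventSet ℂ A) := fun P v =>
    P.continuous.continuousOn.mul (res_cont' A u v)
  induction P using Polynomial.induction_on with
  | C a =>
    intro v
    have := cauchy_zero hp hS hw u (a • v)
    simpa [Algebra.algebraMap_eq_smul_one, inner_smul_right] using this
  | add P Q hP hQ =>
    intro v
    simp only [eval_add, add_mul, smul_add, map_add, ContinuousLinearMap.add_apply,
      inner_add_right]
    rw [integral_add (pm_integrable hS (hc P v)) (pm_integrable hS (hc Q v)), hP, hQ]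
    ring
  | monomial n a ih =>
    intro v
    have h1 := ih (A v)
    have h2 : ∫ q, ed p q • ((C a * X ^ (n + 1)).eval (pt p q) * ⟪u, resolvent A (pt p q) v⟫_ℂ)
        ∂(pm N) = ∫ q, (ed p q • (a * (pt p q) ^ n) * ⟪u, v⟫_ℂ
          + ed p q • ((C a * X ^ n).eval (pt p q) * ⟪u, resolvent A (pt p q) (A v)⟫_ℂ))
            ∂(pm N) := by
      refine integral_congr_ae (pm_ae fun j hj s hs => ?_)
      have h3 := res_left (hS j hj s hs) v
      rw [map_sub, map_smul] at h3
      have h4 : ⟪u, v⟫_ℂ = pt p (j, s) * ⟪u, resolvent A (pt p (j, s)) v⟫_ℂ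
          - ⟪u, resolvent A (pt p (j, s)) (A v)⟫_ℂ := by
        rw [← inner_smul_right, ← inner_sub_right, h3]
      simp only [h4, eval_mul, eval_C, eval_pow, eval_X, smul_eq_mul]
      ring
    have hcn : ContinuousOn (fun z : ℂ => a * z ^ n) (resolventSet ℂ A) := by fun_prop
    rw [h2, integral_add ((pm_integrable hS hcn).mul_const _) (pm_integrable hS (hc _ _)), h1,
      integral_mul_const, pm_exact (G := fun z => a * (z ^ (n + 1) / (n + 1))) hp hS hcn]
    · rw [pow_succ, ← mul_assoc (C a), map_mul (aeval A) (C a * X ^ n) X, aeval_X]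
      simp
    · intro z _
      have h7 := ((hasDerivAt_pow (n + 1) z).div_const ((n : ℂ) + 1)).const_mul a
      refine h7.congr_deriv ?_
      have : (n : ℂ) + 1 ≠ 0 := by exact_mod_cast Nat.succ_ne_zero n
      simp
      field_simp
      simp

end

end Vale.Agent.P123
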