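import Mathlib

open MeasureTheory Set
open scoped InnerProductSpace ComplexConjugate

namespace Vale.Agent.P123

/-- parameter measure of a polygon with `N` edges -/
noncomputable def pm (N : ℕ) : Measure (ℕ × ℝ) :=
  ∑ j ∈ Finset.range N, Measure.map (Prod.mk j) (volume.restrict (Ioc (0 : ℝ) 1))

/-- edge vector -/
def ed (p : ℕ → ℂ) (q : ℕ × ℝ) : ℂ := p (q.1 + 1) - p q.1

/-- point on the polygon -/
def pt (p : ℕ → ℂ) (q : ℕ × ℝ) : ℂ := p q.1 + (q.2 : ℂ) * (p (q.1 + 1) - p q.1)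

lemma pm_ae {N : ℕ} {P : ℕ × ℝ → Prop} (h : ∀ j < N, ∀ s ∈ Icc (0 : ℝ) 1, P (j, s)) :
    ∀ᵐ q ∂(pm N), P q := by
  unfold pm
  rw [ae_finsetSum_measure_iff]
  intro j hj
  rw [(measurableEmbedding_prodMk_left j).ae_map_iff]
  filter_upwards [ae_restrict_mem measurableSet_Ioc] with s hs
  exact h j (Finset.mem_range.1 hj) s (Ioc_subset_Icc_self hs)

variable {E : Type*} [NormedAddCommGroup E] [NormedSpace ℂ E]

lemma edge_cont {p : ℕ → ℂ} {S : Set ℂ} {j : ℕ} (hS : ∀ s ∈ Icc (0 : ℝ) 1, pt p (j, s) ∈ S)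
    {F : ℂ → E} (hF : ContinuousOn F S) :
    ContinuousOn (fun s : ℝ => ed p (j, s) • F (pt p (j, s))) (Icc 0 1) := by
  have h1 : Continuous (fun s : ℝ => pt p (j, s)) := by unfold pt; fun_prop
  have h2 : Continuous (fun s : ℝ => ed p (j, s)) := by unfold ed; fun_prop
  exact h2.continuousOn.smul (hF.comp h1.continuousOn hS)

lemma pm_integrable {N : ℕ} {p : ℕ → ℂ} {S : Set ℂ}
    (hS : ∀ j < N, ∀ s ∈ Icc (0 : ℝ) 1, pt p (j, s) ∈ S) {F : ℂ → E} (hF : ContinuousOn F S) :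
    Integrable (fun q => ed p q • F (pt p q)) (pm N) := by
  unfold pm
  rw [integrable_finsetSum_measure]
  intro j hj
  rw [(measurableEmbedding_prodMk_left j).integrable_map_iff]
  exact ((edge_cont (hS j (Finset.mem_range.1 hj)) hF).integrableOn_Icc).mono_set
    Ioc_subset_Icc_self

lemma pm_integral {N : ℕ} {G : ℕ × ℝ → E} (hG : Integrable G (pm N)) :
    ∫ q, G q ∂(pm N) = ∑ j ∈ Finset.range N, ∫ s in (0 : ℝ)..1, G (j, s) := by
  unfold pm at hG ⊢
  rw [integral_finsetSum_measure (integrable_finsetSum_measure.1 hG)]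
  refine Finset.sum_congr rfl fun j _ => ?_
  rw [(measurableEmbedding_prodMk_left j).integral_map,
    intervalIntegral.integral_of_le zero_le_one]

lemma edge_ftc {p : ℕ → ℂ} {S : Set ℂ} {j : ℕ} (hS : ∀ s ∈ Icc (0 : ℝ) 1, pt p (j, s) ∈ S)
    {F G : ℂ → ℂ} (hF : ContinuousOn F S)
    (hG : ∀ s ∈ Icc (0 : ℝ) 1, HasDerivAt G (F (pt p (j, s))) (pt p (j, s))) :
    ∫ s in (0 : ℝ)..1, ed p (j, s) • F (pt p (j, s)) = G (p (j + 1)) - G (p j) := by
  have h := intervalIntegral.integral_eq_sub_of_hasDerivAt (a := 0) (b := 1)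
    (f := fun s : ℝ => G (pt p (j, s))) (f' := fun s => ed p (j, s) • F (pt p (j, s))) ?_ ?_
  · rw [h]; simp [pt]
  · intro s hs
    rw [uIcc_of_le zero_le_one] at hs
    have h1 : HasDerivAt (fun z : ℂ => p j + z * (p (j + 1) - p j)) (p (j + 1) - p j) (s : ℂ) := by
      simpa using ((hasDerivAt_id (s : ℂ)).mul_const (p (j + 1) - p j)).const_add (p j)
    have h2 := (HasDerivAt.comp (s : ℂ) (h₂ := G) (hG s hs) h1).comp_ofReal
    have h3 : ed p (j, s) • F (pt p (j, s)) = F (pt p (j, s)) * (p (j + 1) - p j) := by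
      rw [smul_eq_mul, mul_comm]; rfl
    rw [h3]
    exact h2
  · exact ((edge_cont hS hF).mono (by rw [uIcc_of_le zero_le_one])).intervalIntegrable

lemma pm_exact {N : ℕ} {p : ℕ → ℂ} {S : Set ℂ} (hp : p N = p 0)
    (hS : ∀ j < N, ∀ s ∈ Icc (0 : ℝ) 1, pt p (j, s) ∈ S) {F G : ℂ → ℂ} (hF : ContinuousOn F S)
    (hG : ∀ z ∈ S, HasDerivAt G (F z) z) :
    ∫ q, ed p q • F (pt p q) ∂(pm N) = 0 := by
  rw [pm_integral (pm_integrable hS hF)]
  rw [Finset.sum_congr rfl (fun j hj => edge_ftc (hS j (Finset.mem_range.1 hj)) hF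
    (fun s hs => hG _ (hS j (Finset.mem_range.1 hj) s hs))),
    Finset.sum_range_sub (fun j => G (p j)), hp, sub_self]

/-- direction number `j` -/
noncomputable def dir (N j : ℕ) : ℂ := Complex.exp ((j * (2 * Real.pi / N) : ℝ) * Complex.I)

lemma dir_norm (N j : ℕ) : ‖dir N j‖ = 1 := Complex.norm_exp_ofReal_mul_I _

lemma dir_succ (N j : ℕ) :
    dir N (j + 1) = dir N j * Complex.exp ((2 * Real.pi / N : ℝ) * Complex.I) := by
  unfold dir
  rw [← Complex.exp_add]
  congr 1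
  push_cast; ring

lemma dir_N {N : ℕ} (hN : N ≠ 0) : dir N N = dir N 0 := by
  unfold dir
  have : (N : ℝ) ≠ 0 := by exact_mod_cast hN
  have h : (N * (2 * Real.pi / N) : ℝ) = 2 * Real.pi := by field_simp
  rw [h]
  simp

lemma pm_winding {N : ℕ} (hN : 4 ≤ N) {p : ℕ → ℂ} (hp : p N = p 0) (c : ℂ)
    (h1 : ∀ j < N, ∀ s ∈ Icc (0 : ℝ) 1, 0 < (conj (dir N j) * (pt p (j, s) - c)).re)
    (h2 : ∀ j < N, 0 < (conj (dir N (j + 1)) * (p (j + 1) - c)).re) :
    ∫ q, ed p q • (pt p q - c)⁻¹ ∂(pm N) = 2 * Real.pi * Complex.I := by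
  have hS : ∀ j < N, ∀ s ∈ Icc (0 : ℝ) 1, pt p (j, s) ∈ ({c}ᶜ : Set ℂ) := by
    intro j hj s hs hc
    have := h1 j hj s hs
    rw [mem_singleton_iff.1 hc] at this
    simp at this
  have hF : ContinuousOn (fun z : ℂ => (z - c)⁻¹) ({c}ᶜ : Set ℂ) :=
    ContinuousOn.inv₀ (by fun_prop) (fun z hz => sub_ne_zero.2 hz)
  rw [pm_integral (pm_integrable hS hF)]
  set δ : ℝ := 2 * Real.pi / N with hδ
  have hN0 : (0 : ℝ) < N := by exact_mod_cast (by omega : 0 < N)
  have hδ0 : 0 < δ := by have := Real.pi_pos; positivity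
  have hδ1 : δ ≤ Real.pi / 2 := by
    have h4 : (4 : ℝ) ≤ N := by exact_mod_cast hN
    rw [hδ, div_le_iff₀ hN0]
    nlinarith [Real.pi_pos]
  set a : ℕ → ℂ := fun j => Complex.log (conj (dir N j) * (p j - c)) with ha
  have key : ∀ j ∈ Finset.range N, ∫ s in (0 : ℝ)..1, ed p (j, s) • (pt p (j, s) - c)⁻¹
      = (a (j + 1) - a j) + δ * Complex.I := by
    intro j hj
    have hj' := Finset.mem_range.1 hj
    have hd0 : conj (dir N j) ≠ 0 := by
      rw [map_ne_zero, ← norm_ne_zero_iff, dir_norm]; exact one_ne_zero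
    rw [edge_ftc (hS j hj') hF (G := fun z => Complex.log (conj (dir N j) * (z - c)))]
    · have h3 := h2 j hj'
      set z := conj (dir N (j + 1)) * (p (j + 1) - c) with hz
      have hz0 : z ≠ 0 := by intro h0; rw [h0] at h3; simp at h3
      have h4 : conj (dir N j) * (p (j + 1) - c) = Complex.exp (Complex.log z + δ * Complex.I) := by
        rw [Complex.exp_add, Complex.exp_log hz0, hz, dir_succ, map_mul, ← hδ, ← Complex.exp_conj]
        simp only [map_mul, Complex.conj_ofReal, Complex.conj_I]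
        rw [mul_assoc, mul_assoc, mul_comm (p (j + 1) - c), ← mul_assoc (Complex.exp _),
          ← Complex.exp_add]
        simp
      have h5 : |z.arg| < Real.pi / 2 := Complex.abs_arg_lt_pi_div_two_iff.2 (Or.inl h3)
      rw [abs_lt] at h5
      rw [h4, Complex.log_exp]
      · simp only [ha]; ring
      · simp [Complex.log_im]; linarith [Real.pi_pos]
      · simp [Complex.log_im]; linarith [Real.pi_pos]
    · intro s hs
      have h3 := h1 j hj' s hs
      have h4 : HasDerivAt (fun z => conj (dir N j) * (z - c)) (conj (dir N j)) (pt p (j, s)) := by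
        simpa using ((hasDerivAt_id (pt p (j, s))).sub_const c).const_mul (conj (dir N j))
      have h5 := h4.clog (Or.inl h3)
      convert h5 using 1
      have : pt p (j, s) - c ≠ 0 := sub_ne_zero.2 (hS j hj' s hs)
      field_simp
  rw [Finset.sum_congr rfl key, Finset.sum_add_distrib, Finset.sum_range_sub]
  have : a N = a 0 := by simp only [ha]; rw [dir_N (by omega), hp]
  rw [this, hδ]
  have : (N : ℂ) ≠ 0 := by exact_mod_cast (by omega : N ≠ 0)
  simp
  field_simp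

end Vale.Agent.P123
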