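import Vale.Agent.P123.Cauchy

open MeasureTheory Set Polynomial
open scoped InnerProductSpace ComplexConjugate

namespace Vale.Agent.P123

variable {H : Type*} [NormedAddCommGroup H] [InnerProductSpace ℂ H]

/-- Toeplitz Hausdorff, normalised form -/
lemma th_aux (B : H →L[ℂ] H) (x y : H) (hx : ‖x‖ = 1) (hy : ‖y‖ = 1) (h0 : ⟪x, B x⟫_ℂ = 0)
    (h1 : ⟪y, B y⟫_ℂ = 1) (t : ℝ) (ht : t ∈ Icc (0 : ℝ) 1) :
    ∃ z : H, ‖z‖ = 1 ∧ ⟪z, B z⟫_ℂ = t := by
  set p := ⟪x, B y⟫_ℂ with hp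
  set q := ⟪y, B x⟫_ℂ with hq
  obtain ⟨l, hl1, hl2⟩ : ∃ l : ℂ, ‖l‖ = 1 ∧ (l * (p - conj q)).im = 0 := by
    by_cases h : p - conj q = 0
    · exact ⟨1, by simp, by simp [h]⟩
    · refine ⟨conj (p - conj q) / ‖p - conj q‖, ?_, ?_⟩
      · rw [norm_div, Complex.norm_conj]
        simp [h]
      · rw [div_mul_eq_mul_div, Complex.conj_mul', ← Complex.ofReal_pow, ← Complex.ofReal_div,
          Complex.ofReal_im]
  set g : ℝ := (l * p + conj l * q).re with hg
  have hg' : l * p + conj l * q = g := by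
    apply Complex.ext
    · simp [hg]
    · simp at hl2 ⊢; linarith
  have hll : conj l * l = 1 := by rw [Complex.conj_mul', hl1]; simp
  set z : ℝ → H := fun s => ((1 - s : ℝ) : ℂ) • x + ((s : ℂ) * l) • y with hz
  have hzB : ∀ s : ℝ, ⟪z s, B (z s)⟫_ℂ = ((s ^ 2 + s * (1 - s) * g : ℝ) : ℂ) := by
    intro s
    simp only [hz, map_add, map_smul, inner_add_left, inner_add_right, inner_smul_left,
      inner_smul_right, h0, h1, ← hp, ← hq, map_mul, Complex.conj_ofReal]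
    push_cast
    rw [← hg']
    linear_combination (s : ℂ) ^ 2 * hll
  have hcont : Continuous (fun s : ℝ => (s ^ 2 + s * (1 - s) * g) - t * ‖z s‖ ^ 2) := by
    simp only [hz]; fun_prop
  have hivt := intermediate_value_Icc (zero_le_one' ℝ) hcont.continuousOn
  have hz0 : ‖z 0‖ = 1 := by simp [hz, hx]
  have hz1 : ‖z 1‖ = 1 := by simp [hz, norm_smul, hy, hl1]
  obtain ⟨s, hs, hs0⟩ := hivt (a := 0) (by
    simp only [hz0, hz1]
    constructor <;> nlinarith [ht.1, ht.2])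
  simp only at hs0
  have hzne : z s ≠ 0 := by
    intro h
    have h3 : ((1 - s : ℝ) : ℂ) • x = -(((s : ℂ) * l) • y) := eq_neg_of_add_eq_zero_left h
    have h4 : ⟪((1 - s : ℝ) : ℂ) • x, B (((1 - s : ℝ) : ℂ) • x)⟫_ℂ = 0 := by
      simp [inner_smul_left, inner_smul_right, h0]
    rw [h3] at h4
    simp only [map_neg, map_smul, inner_neg_left, inner_neg_right, neg_neg, inner_smul_left,
      inner_smul_right, h1, mul_one, map_mul, Complex.conj_ofReal] at h4
    have h5 : (s : ℂ) ^ 2 = 0 := by linear_combination h4 - (s : ℂ) ^ 2 * hll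
    have h6 : s = 0 := by exact_mod_cast pow_eq_zero_iff (two_ne_zero) |>.1 h5
    rw [h6] at h
    rw [h] at hz0
    simp at hz0
  have hn : ‖z s‖ ≠ 0 := norm_ne_zero_iff.2 hzne
  refine ⟨((‖z s‖⁻¹ : ℝ) : ℂ) • z s, ?_, ?_⟩
  · rw [norm_smul]; simp [hn]
  · rw [map_smul, inner_smul_left, inner_smul_right, hzB, Complex.conj_ofReal,
      sub_eq_zero.1 hs0]
    have : ((‖z s‖ : ℝ) : ℂ) ≠ 0 := by exact_mod_cast hn
    push_cast
    field_simp

lemma th (A : H →L[ℂ] H) (x y : H) (hx : ‖x‖ = 1) (hy : ‖y‖ = 1) (t : ℝ)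
    (ht : t ∈ Icc (0 : ℝ) 1) :
    ∃ z : H, ‖z‖ = 1 ∧ ⟪z, A z⟫_ℂ = ⟪x, A x⟫_ℂ + t * (⟪y, A y⟫_ℂ - ⟪x, A x⟫_ℂ) := by
  set a := ⟪x, A x⟫_ℂ with ha
  set b := ⟪y, A y⟫_ℂ with hb
  by_cases hab : b - a = 0
  · exact ⟨x, hx, by rw [hab]; simp [ha]⟩
  have hB : ∀ z : H, ‖z‖ = 1 →
      ⟪z, ((b - a)⁻¹ • (A - a • (1 : H →L[ℂ] H))) z⟫_ℂ = (b - a)⁻¹ * (⟪z, A z⟫_ℂ - a) := by
    intro z hz
    simp [inner_smul_right, inner_sub_right, inner_self_eq_norm_sq_to_K, hz]
  obtain ⟨z, hz, hz2⟩ := th_aux ((b - a)⁻¹ • (A - a • (1 : H →L[ℂ] H))) x y hx hy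
    (by rw [hB x hx, ← ha]; simp) (by rw [hB y hy, ← hb]; field_simp) t ht
  refine ⟨z, hz, ?_⟩
  rw [hB z hz] at hz2
  rw [← hz2]
  field_simp
  ring

lemma form_pos {A : H →L[ℂ] H} {z u : ℂ}
    (h : ∀ x : H, ‖x‖ = 1 → 0 < (conj u * (z - ⟪x, A x⟫_ℂ)).re) (y : H) (hy : y ≠ 0) :
    0 < (conj u * ⟪y, z • y - A y⟫_ℂ).re := by
  have hn : ‖y‖ ≠ 0 := norm_ne_zero_iff.2 hy
  have h1 := h (((‖y‖⁻¹ : ℝ) : ℂ) • y) (by rw [norm_smul]; simp [hn])
  have hn' : ((‖y‖ : ℝ) : ℂ) ≠ 0 := by exact_mod_cast hn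
  have h2 : conj u * ⟪y, z • y - A y⟫_ℂ = ((‖y‖ ^ 2 : ℝ) : ℂ) * (conj u * (z
      - ⟪((‖y‖⁻¹ : ℝ) : ℂ) • y, A (((‖y‖⁻¹ : ℝ) : ℂ) • y)⟫_ℂ)) := by
    rw [map_smul, inner_smul_left, inner_smul_right, inner_sub_right, inner_smul_right,
      inner_self_eq_norm_sq_to_K, Complex.conj_ofReal]
    simp only [Complex.coe_algebraMap]
    push_cast
    field_simp
  rw [h2, Complex.re_ofReal_mul]
  positivity

lemma mem_res [FiniteDimensional ℂ H] {A : H →L[ℂ] H} {z u : ℂ}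
    (h : ∀ x : H, ‖x‖ = 1 → 0 < (conj u * (z - ⟪x, A x⟫_ℂ)).re) : z ∈ resolventSet ℂ A := by
  have : CompleteSpace H := FiniteDimensional.complete ℂ H
  rw [spectrum.mem_resolventSet_iff, ContinuousLinearMap.isUnit_iff_bijective]
  have hinj : Function.Injective (algebraMap ℂ (H →L[ℂ] H) z - A) := by
    rw [injective_iff_map_eq_zero]
    intro y hy
    by_contra hy0
    have := form_pos h y hy0
    have h2 : z • y - A y = 0 := by simpa [Algebra.algebraMap_eq_smul_one] using hy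
    rw [h2] at this
    simp at this
  exact ⟨hinj, (LinearMap.injective_iff_surjective
    (f := ((algebraMap ℂ (H →L[ℂ] H) z - A : H →L[ℂ] H) : H →ₗ[ℂ] H))).1 hinj⟩

lemma res_pos [FiniteDimensional ℂ H] {A : H →L[ℂ] H} {z u : ℂ}
    (h : ∀ x : H, ‖x‖ = 1 → 0 < (conj u * (z - ⟪x, A x⟫_ℂ)).re) (v : H) :
    0 ≤ (u * ⟪v, resolvent A z v⟫_ℂ).re := by
  have hz := mem_res h
  set y := resolvent A z v with hy
  have h1 : z • y - A y = v := res_right hz v
  by_cases hy0 : y = 0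
  · simp [hy0]
  · have h2 := form_pos h y hy0
    rw [h1, ← inner_conj_symm, ← map_mul, Complex.conj_re] at h2
    exact h2.le

lemma cone (u₀ e : ℂ) (δ : ℝ) (hu : ‖u₀‖ = 1) (hδ : 0 < Real.sin δ)
    (h0 : (conj u₀ * e).re ≤ 0) (h1 : 0 ≤ (conj (u₀ * Complex.exp (δ * Complex.I)) * e).re) :
    ∃ α β : ℝ, 0 ≤ α ∧ 0 ≤ β ∧
      e = Complex.I * (α * u₀ + β * (u₀ * Complex.exp (δ * Complex.I))) := by
  refine ⟨(conj (u₀ * Complex.exp (δ * Complex.I)) * e).re / Real.sin δ,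
    -(conj u₀ * e).re / Real.sin δ, by positivity, div_nonneg (by linarith) hδ.le, ?_⟩
  have hu2 : u₀.re ^ 2 + u₀.im ^ 2 = 1 := by
    have : ‖u₀‖ ^ 2 = 1 := by rw [hu]; ring
    rw [Complex.sq_norm, Complex.normSq_apply] at this
    nlinarith
  rw [Complex.exp_mul_I, ← Complex.ofReal_cos, ← Complex.ofReal_sin]
  have hs := hδ.ne'
  apply Complex.ext
  · simp only [Complex.mul_re, Complex.mul_im, Complex.add_re, Complex.add_im, Complex.ofReal_re,
      Complex.ofReal_im, Complex.I_re, Complex.I_im, Complex.conj_re, Complex.conj_im]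
    field_simp
    linear_combination (-e.re * Real.sin δ) * hu2
  · simp only [Complex.mul_re, Complex.mul_im, Complex.add_re, Complex.add_im, Complex.ofReal_re,
      Complex.ofReal_im, Complex.I_re, Complex.I_im, Complex.conj_re, Complex.conj_im]
    field_simp
    linear_combination (-e.im * Real.sin δ) * hu2

lemma exists_max [FiniteDimensional ℂ H] [Nontrivial H] (A : H →L[ℂ] H) (u : ℂ) :
    ∃ x : H, ‖x‖ = 1 ∧ ∀ y : H, ‖y‖ = 1 → (conj u * ⟪y, A y⟫_ℂ).re ≤ (conj u * ⟪x, A x⟫_ℂ).re := by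
  have : ProperSpace H := FiniteDimensional.proper ℂ H
  have hne : (Metric.sphere (0 : H) 1).Nonempty := NormedSpace.sphere_nonempty.2 zero_le_one
  obtain ⟨x, hx, hmax⟩ := (isCompact_sphere (0 : H) 1).exists_isMaxOn hne
    (f := fun x => (conj u * ⟪x, A x⟫_ℂ).re) (by fun_prop)
  exact ⟨x, by simpa using hx, fun y hy => hmax (by simpa using hy)⟩

lemma inner_bd (A : H →L[ℂ] H) (x : H) (hx : ‖x‖ = 1) : ‖⟪x, A x⟫_ℂ‖ ≤ ‖A‖ := by
  refine (norm_inner_le_norm _ _).trans ?_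
  have := A.le_opNorm x
  rw [hx] at this ⊢
  linarith

/-- existence of a good polygon -/
lemma exists_polygon [FiniteDimensional ℂ H] [Nontrivial H] (A : H →L[ℂ] H) (ε : ℝ) (hε : 0 < ε) :
    ∃ (N : ℕ) (p : ℕ → ℂ), 4 ≤ N ∧ p N = p 0 ∧
      (∀ j < N, ∀ s ∈ Icc (0 : ℝ) 1, ∀ x : H, ‖x‖ = 1 →
        0 < (conj (dir N j) * (pt p (j, s) - ⟪x, A x⟫_ℂ)).re) ∧
      (∀ j < N, ∀ s ∈ Icc (0 : ℝ) 1, ∀ x : H, ‖x‖ = 1 →
        0 < (conj (dir N (j + 1)) * (pt p (j, s) - ⟪x, A x⟫_ℂ)).re) ∧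
      (∀ j < N, ∃ α β : ℝ, 0 ≤ α ∧ 0 ≤ β ∧
        p (j + 1) - p j = Complex.I * (α * dir N j + β * dir N (j + 1))) ∧
      (∀ j < N, ∀ s ∈ Icc (0 : ℝ) 1, ∃ x : H, ‖x‖ = 1 ∧ ‖pt p (j, s) - ⟪x, A x⟫_ℂ‖ ≤ ε) := by
  choose xm hxm1 hxm2 using exists_max A
  set R := ‖A‖ with hR
  have hR0 : 0 ≤ R := norm_nonneg _
  obtain ⟨N, hN⟩ := exists_nat_gt (max 4 (2 * Real.pi * (ε + 2 * R) / ε))
  have hN4 : (4 : ℝ) < N := (le_max_left _ _).trans_lt hN
  have hN5 := (le_max_right _ _).trans_lt hN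
  have hN4' : 4 ≤ N := by exact_mod_cast hN4.le
  set δ : ℝ := 2 * Real.pi / N with hδ
  have hN0 : (0 : ℝ) < N := by linarith
  have hδ0 : 0 < δ := by have := Real.pi_pos; positivity
  have hδ1 : δ < Real.pi := by
    rw [hδ, div_lt_iff₀ hN0]
    nlinarith [Real.pi_pos]
  have hδ2 : δ * (ε + 2 * R) < ε := by
    rw [div_lt_iff₀ hε] at hN5
    rw [hδ, div_mul_eq_mul_div, div_lt_iff₀ hN0]
    linarith
  set w : ℕ → ℂ := fun j => ⟪xm (dir N j), A (xm (dir N j))⟫_ℂ with hw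
  have hwR : ∀ j, ‖w j‖ ≤ R := fun j => inner_bd A _ (hxm1 _)
  set p : ℕ → ℂ := fun j => w j + ε * dir N j with hp
  have hdd : ∀ j, ‖dir N (j + 1) - dir N j‖ ≤ δ := by
    intro j
    rw [dir_succ, ← mul_sub_one, norm_mul, dir_norm, one_mul, ← hδ]
    exact (Real.norm_exp_I_mul_ofReal_sub_one_le (x := δ) |> fun h => by
      rw [mul_comm] at h; simpa [abs_of_pos hδ0] using h)
  -- basic estimate at vertices
  have hv : ∀ (j : ℕ) (u : ℂ), ‖u‖ = 1 → ‖u - dir N j‖ ≤ δ → ∀ x : H, ‖x‖ = 1 →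
      0 < (conj u * (p j - ⟪x, A x⟫_ℂ)).re := by
    intro j u hu hud x hx
    have h1 := hxm2 (dir N j) x hx
    have h2 : conj u * (p j - ⟪x, A x⟫_ℂ) = (conj (dir N j) * w j - conj (dir N j) * ⟪x, A x⟫_ℂ)
        + ε * (conj (dir N j) * dir N j)
        + conj (u - dir N j) * (w j - ⟪x, A x⟫_ℂ + ε * dir N j) := by
      simp only [hp, map_sub]; ring
    have h3 : ‖conj (u - dir N j) * (w j - ⟪x, A x⟫_ℂ + ε * dir N j)‖ ≤ δ * (ε + 2 * R) := by
      rw [norm_mul, Complex.norm_conj]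
      have h4 : ‖w j - ⟪x, A x⟫_ℂ + ε * dir N j‖ ≤ ε + 2 * R := by
        refine (norm_add_le _ _).trans ?_
        have := norm_sub_le (w j) ⟪x, A x⟫_ℂ
        have := inner_bd A x hx
        have := hwR j
        rw [norm_mul, dir_norm, Complex.norm_real, Real.norm_eq_abs, abs_of_pos hε]
        linarith
      gcongr
    have h5 := (abs_le.1 ((Complex.abs_re_le_norm _).trans h3)).1
    rw [h2, Complex.conj_mul', dir_norm]
    simp only [Complex.add_re, Complex.sub_re]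
    simp only [hw]
    simp only [hw] at h5
    simp at h1 h5 ⊢
    linarith
  have hedge : ∀ (j : ℕ) (u : ℂ), ‖u‖ = 1 → ‖u - dir N j‖ ≤ δ → ‖u - dir N (j + 1)‖ ≤ δ →
      ∀ s ∈ Icc (0 : ℝ) 1, ∀ x : H, ‖x‖ = 1 → 0 < (conj u * (pt p (j, s) - ⟪x, A x⟫_ℂ)).re := by
    intro j u hu h1 h2 s hs x hx
    have h3 := hv j u hu h1 x hx
    have h4 := hv (j + 1) u hu h2 x hx
    have h5 : conj u * (pt p (j, s) - ⟪x, A x⟫_ℂ) = ((1 - s : ℝ) : ℂ) * (conj u * (p j - ⟪x, A x⟫_ℂ))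
        + (s : ℂ) * (conj u * (p (j + 1) - ⟪x, A x⟫_ℂ)) := by
      simp only [pt]; push_cast; ring
    rw [h5, Complex.add_re, Complex.re_ofReal_mul, Complex.re_ofReal_mul]
    rcases eq_or_lt_of_le hs.1 with h | h
    · rw [← h]; simpa using h3
    · have := hs.2
      have h6 : 0 ≤ (1 - s) * (conj u * (p j - ⟪x, A x⟫_ℂ)).re := mul_nonneg (by linarith) h3.le
      have h7 := mul_pos h h4
      linarith
  refine ⟨N, p, hN4', ?_, ?_, ?_, ?_, ?_⟩
  · simp only [hp, hw]; rw [dir_N (by omega)]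
  · intro j _ s hs x hx
    exact hedge j _ (dir_norm _ _) (by simp [hδ0.le]) (by rw [norm_sub_rev]; exact hdd j) s hs x hx
  · intro j _ s hs x hx
    exact hedge j _ (dir_norm _ _) (hdd j) (by simp [hδ0.le]) s hs x hx
  · intro j _
    have h1 := hxm2 (dir N j) _ (hxm1 (dir N (j + 1)))
    have h2 := hxm2 (dir N (j + 1)) _ (hxm1 (dir N j))
    have h3 : (conj (dir N j) * dir N (j + 1)).re ≤ 1 := by
      refine (Complex.re_le_norm _).trans ?_
      rw [norm_mul, Complex.norm_conj, dir_norm, dir_norm, one_mul]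
    have h4 : (conj (dir N (j + 1)) * dir N j).re ≤ 1 := by
      refine (Complex.re_le_norm _).trans ?_
      rw [norm_mul, Complex.norm_conj, dir_norm, dir_norm, one_mul]
    have h5 := cone (dir N j) (p (j + 1) - p j) δ (dir_norm _ _)
      (Real.sin_pos_of_pos_of_lt_pi hδ0 hδ1) ?_ ?_
    · rwa [← dir_succ] at h5
    · have : conj (dir N j) * (p (j + 1) - p j) = (conj (dir N j) * w (j + 1) - conj (dir N j) * w j)
          + ε * (conj (dir N j) * dir N (j + 1) - conj (dir N j) * dir N j) := by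
        simp only [hp]; ring
      rw [this, Complex.conj_mul', dir_norm, Complex.add_re, Complex.re_ofReal_mul, Complex.sub_re,
        Complex.sub_re]
      simp only [hw]
      simp only [Complex.ofReal_one, one_pow, Complex.one_re]
      nlinarith
    · rw [← dir_succ]
      have : conj (dir N (j + 1)) * (p (j + 1) - p j) = (conj (dir N (j + 1)) * w (j + 1)
          - conj (dir N (j + 1)) * w j)
          + ε * (conj (dir N (j + 1)) * dir N (j + 1) - conj (dir N (j + 1)) * dir N j) := by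
        simp only [hp]; ring
      rw [this, Complex.conj_mul', dir_norm, Complex.add_re, Complex.re_ofReal_mul, Complex.sub_re,
        Complex.sub_re]
      simp only [hw]
      simp only [Complex.ofReal_one, one_pow, Complex.one_re]
      nlinarith
  · intro j _ s hs
    obtain ⟨x, hx, hx2⟩ := th A _ _ (hxm1 (dir N j)) (hxm1 (dir N (j + 1))) s hs
    refine ⟨x, hx, ?_⟩
    have : pt p (j, s) - ⟪x, A x⟫_ℂ = ε * (((1 - s : ℝ) : ℂ) * dir N j + (s : ℂ) * dir N (j + 1)) := by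
      rw [hx2]; simp only [pt, hp, hw]; push_cast; ring
    rw [this, norm_mul, Complex.norm_real, Real.norm_eq_abs, abs_of_pos hε]
    have h2 : ‖((1 - s : ℝ) : ℂ) * dir N j + (s : ℂ) * dir N (j + 1)‖ ≤ 1 := by
      refine (norm_add_le _ _).trans ?_
      rw [norm_mul, norm_mul, dir_norm, dir_norm, Complex.norm_real, Complex.norm_real,
        Real.norm_eq_abs, Real.norm_eq_abs, abs_of_nonneg hs.1, abs_of_nonneg (by linarith [hs.2])]
      linarith
    nlinarith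

theorem findim [FiniteDimensional ℂ H] [Nontrivial H] (A : H →L[ℂ] H) (P : ℂ[X]) (M : ℝ)
    (hM : ∀ x : H, ‖x‖ = 1 → ‖P.eval ⟪x, A x⟫_ℂ‖ ≤ M) : ‖aeval A P‖ ≤ 2 * M := by
  have : CompleteSpace H := FiniteDimensional.complete ℂ H
  have hM0 : 0 ≤ M := by
    obtain ⟨x, hx, -⟩ := exists_norming A
    exact (norm_nonneg _).trans (hM x hx)
  suffices h : ∀ η > 0, ‖aeval A P‖ ≤ 2 * (M + η) by
    refine le_of_forall_pos_le_add fun η hη => ?_
    have := h (η / 2) (by positivity)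
    linarith
  intro η hη
  have huc := (isCompact_closedBall (0 : ℂ) (‖A‖ + 1)).uniformContinuousOn_of_continuous
    P.continuous.continuousOn
  obtain ⟨ε₀, hε₀, hε⟩ := Metric.uniformContinuousOn_iff.1 huc η hη
  obtain ⟨N, p, hN, hp, h1, h2, h3, h4⟩ := exists_polygon A (min (ε₀ / 2) 1) (by positivity)
  have hS : ∀ j < N, ∀ s ∈ Icc (0 : ℝ) 1, pt p (j, s) ∈ resolventSet ℂ A :=
    fun j hj s hs => mem_res (h1 j hj s hs)
  have hw : ∀ (c : ℂ) (x : H), x ≠ 0 → A x = c • x →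
      ∫ q, ed p q • (pt p q - c)⁻¹ ∂(pm N) = 2 * Real.pi * Complex.I := by
    intro c x hx0 hx
    have hn : ‖x‖ ≠ 0 := norm_ne_zero_iff.2 hx0
    set y := ((‖x‖⁻¹ : ℝ) : ℂ) • x with hy
    have hy1 : ‖y‖ = 1 := by rw [hy, norm_smul]; simp [hn]
    have hAy : A y = c • y := by rw [hy, map_smul, hx, smul_comm]
    have hc : ⟪y, A y⟫_ℂ = c := by
      rw [hAy, inner_smul_right, inner_self_eq_norm_sq_to_K, hy1]; simp
    refine pm_winding hN hp c (fun j hj s hs => hc ▸ h1 j hj s hs y hy1) fun j hj => ?_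
    have := h2 j hj 1 (by simp) y hy1
    simpa [pt, hc] using this
  have hMη : 0 < M + η := by positivity
  set Q : ℂ[X] := C (((M + η)⁻¹ : ℝ) : ℂ) * P with hQ
  have hπ : (2 * Real.pi * Complex.I : ℂ) ≠ 0 := Complex.two_pi_I_ne_zero
  have hQb : ∀ j < N, ∀ s ∈ Icc (0 : ℝ) 1, ‖Q.eval (pt p (j, s))‖ ≤ 1 := by
    intro j hj s hs
    obtain ⟨x, hx, hx2⟩ := h4 j hj s hs
    have h5 := inner_bd A x hx
    have h6 : ‖pt p (j, s)‖ ≤ ‖A‖ + 1 := by
      have := norm_le_norm_sub_add (pt p (j, s)) ⟪x, A x⟫_ℂ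
      have := min_le_right (ε₀ / 2) 1
      linarith
    have h7 := hε (pt p (j, s)) (by simpa using h6) ⟪x, A x⟫_ℂ (by simp; linarith) (by
      rw [dist_eq_norm]
      have := min_le_left (ε₀ / 2) 1
      linarith)
    rw [dist_eq_norm] at h7
    have h8 := norm_le_norm_sub_add (P.eval (pt p (j, s))) (P.eval ⟪x, A x⟫_ℂ)
    have h9 := hM x hx
    rw [hQ, eval_mul, eval_C, norm_mul, Complex.norm_real, Real.norm_eq_abs,
      abs_of_pos (by positivity), inv_mul_le_iff₀ hMη]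
    linarith
  have hcore := core (pm N)
    (fun q => (2 * Real.pi * Complex.I : ℂ)⁻¹ • (ed p q • resolvent A (pt p q)))
    (fun q => Q.eval (pt p q)) (aeval A Q)
    ((pm_integrable hS (res_cont A)).smul (2 * Real.pi * Complex.I : ℂ)⁻¹) ?_ (pm_ae hQb) ?_ ?_ ?_
  · rw [hQ, map_mul, aeval_C, Algebra.algebraMap_eq_smul_one, smul_mul_assoc, one_mul, norm_smul,
      Complex.norm_real, Real.norm_eq_abs, abs_of_pos (by positivity), inv_mul_le_iff₀ hMη] at hcore
    linarith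
  · have : Continuous (pt p) := by
      unfold pt
      have h5 : Continuous (fun q : ℕ × ℝ => p q.1) := continuous_of_discreteTopology.comp continuous_fst
      have h6 : Continuous (fun q : ℕ × ℝ => p (q.1 + 1)) :=
        (continuous_of_discreteTopology (f := fun j => p (j + 1))).comp continuous_fst
      fun_prop
    exact (Q.continuous.comp this).aestronglyMeasurable
  · refine pm_ae fun j hj s hs v => ?_
    simp only [ContinuousLinearMap.smul_apply, map_smul, res_comm_poly (hS j hj s hs)]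
  · refine pm_ae fun j hj s hs v => ?_
    obtain ⟨α, β, hα, hβ, h5⟩ := h3 j hj
    have h6 := res_pos (h1 j hj s hs) v
    have h7 := res_pos (h2 j hj s hs) v
    have h8 : ⟪v, ((2 * Real.pi * Complex.I : ℂ)⁻¹ • (ed p (j, s) • resolvent A (pt p (j, s)))) v⟫_ℂ
        = (((2 * Real.pi)⁻¹ * α : ℝ) : ℂ) * (dir N j * ⟪v, resolvent A (pt p (j, s)) v⟫_ℂ)
        + (((2 * Real.pi)⁻¹ * β : ℝ) : ℂ) * (dir N (j + 1) * ⟪v, resolvent A (pt p (j, s)) v⟫_ℂ) := by
      simp only [ContinuousLinearMap.smul_apply, inner_smul_right, ed, h5]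
      have : (Real.pi : ℂ) ≠ 0 := by exact_mod_cast Real.pi_ne_zero
      push_cast
      field_simp
    rw [h8, Complex.add_re, Complex.re_ofReal_mul, Complex.re_ofReal_mul]
    have := Real.pi_pos
    positivity
  · intro n u v
    have h5 := cauchy_poly hp hS hw (Q ^ n) u v
    rw [map_pow] at h5
    have h6 : ∀ q, Q.eval (pt p q) ^ n *
        ⟪u, ((2 * Real.pi * Complex.I : ℂ)⁻¹ • (ed p q • resolvent A (pt p q))) v⟫_ℂ
        = (2 * Real.pi * Complex.I : ℂ)⁻¹ *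
          (ed p q • ((Q ^ n).eval (pt p q) * ⟪u, resolvent A (pt p q) v⟫_ℂ)) := by
      intro q
      simp only [ContinuousLinearMap.smul_apply, inner_smul_right, eval_pow, smul_eq_mul]
      ring
    simp_rw [h6]
    rw [integral_const_mul, h5]
    field_simp

theorem general (A : H →L[ℂ] H) (P : ℂ[X]) (M : ℝ) (hM0 : 0 ≤ M)
    (hM : ∀ x : H, ‖x‖ = 1 → ‖P.eval ⟪x, A x⟫_ℂ‖ ≤ M) : ‖aeval A P‖ ≤ 2 * M := by
  refine ContinuousLinearMap.opNorm_le_of_unit_norm (by positivity) fun x hx => ?_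
  set d := P.natDegree with hd
  set K : Submodule ℂ H := Submodule.span ℂ (Set.range fun i : Fin (d + 1) => (A ^ (i : ℕ)) x)
    with hK
  have : FiniteDimensional ℂ K := FiniteDimensional.span_of_finite ℂ (Set.finite_range _)
  have hmem : ∀ i ≤ d, (A ^ i) x ∈ K := fun i hi =>
    Submodule.subset_span ⟨⟨i, by omega⟩, rfl⟩
  have hx0 : x ∈ K := by simpa using hmem 0 (Nat.zero_le _)
  set x' : K := ⟨x, hx0⟩ with hx'
  have : Nontrivial K := ⟨⟨x', 0, by
    intro h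
    have : x = 0 := congrArg Subtype.val h
    rw [this] at hx; simp at hx⟩⟩
  set B : K →L[ℂ] K := K.orthogonalProjection ∘L A ∘L K.subtypeL with hB
  have hpow : ∀ i ≤ d, (((B ^ i) x' : K) : H) = (A ^ i) x := by
    intro i
    induction i with
    | zero => intro _; simp [hx']
    | succ i ih =>
      intro hi
      rw [pow_succ', pow_succ', mul_apply_eq_comp, mul_apply_eq_comp]
      have h1 : B ((B ^ i) x') = K.orthogonalProjection (A ((A ^ i) x)) := by
        rw [← ih (by omega)]; rfl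
      have h2 : A ((A ^ i) x) ∈ K := by
        have := hmem (i + 1) hi
        rwa [pow_succ', mul_apply_eq_comp] at this
      rw [h1]
      exact congrArg Subtype.val (K.orthogonalProjection_mem_subspace_eq_self ⟨_, h2⟩)
  have hP : ((aeval B P x' : K) : H) = aeval A P x := by
    rw [aeval_eq_sum_range, aeval_eq_sum_range]
    simp only [ContinuousLinearMap.sum_apply, ContinuousLinearMap.smul_apply,
      Submodule.coe_sum, Submodule.coe_smul]
    refine Finset.sum_congr rfl fun i hi => ?_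
    rw [hpow i (by have := Finset.mem_range.1 hi; omega)]
  have hfin := findim B P M (by
    intro y hy
    have : ⟪y, B y⟫_ℂ = ⟪(y : H), A y⟫_ℂ := K.inner_orthogonalProjection_eq_of_mem_left y _
    rw [this]
    exact hM _ hy)
  rw [← hP]
  have h3 := (aeval B P).le_opNorm x'
  have h4 : ‖x'‖ = 1 := hx
  rw [h4] at h3
  exact h3.trans (by linarith)

end Vale.Agent.P123
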